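import Vale.Agent.N305.Top
import Vale.Agent.N305.Logs

/-!
# P305: maximum matching in time `(n + m) ^ (1 + O(1 / log log log (n + m)))` on the word RAM,
with a failure probability that tends to zero
-/

namespace Vale.Agent.Results.P305.A0Explicit

open Vale.Agent.P305W88 Vale.Agent.N305 Real

theorem result (a : ℝ) :
    ∃ (P : List Ins) (k : ℕ) (T : ℕ → ℕ → ℕ) (p : ℕ → ℕ → ℝ) (C : ℝ) (N₀ : ℕ),
      Computes P k T p ∧ (∀ n m, 2 / 3 ≤ p n m) ∧ ∀ n m : ℕ, N₀ ≤ n + m →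
        (T n m : ℝ) ≤ ((n : ℝ) + m) ^ (1 + C / log (log (log ((n : ℝ) + m)))) ∧
        1 - ((n : ℝ) + m) ^ (-a / log (log (log ((n : ℝ) + m)))) ≤ p n m := by
  have two : ∀ a N : ℕ, 2 ≤ a → 2 ≤ N → (2 : ℝ) / 3 ≤ 1 - 1 / 2 ^ (a * P305E.sb N) := by
    intro a N ha hN
    have h1 : (2 : ℝ) ^ 2 ≤ 2 ^ (a * P305E.sb N) := pow_le_pow_right₀ (by norm_num)
      (ha.trans (Nat.le_mul_of_pos_right _ (P305E.one_le_sb hN)))
    have h2 := one_div_le_one_div_of_le (by positivity) h1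
    linarith
  obtain ⟨a', N₀, ha, h0⟩ := real_bounds a
  obtain ⟨P, k, c, h⟩ := explicit a'
  obtain ⟨C, hC⟩ := h0 c
  refine ⟨P, k, _, _, C, N₀, h, fun n m => two a' _ ha (by omega), fun n m hN => ?_⟩
  obtain ⟨e1, e2⟩ := hC (n + m) hN
  rw [Nat.cast_add n m] at e1 e2
  exact ⟨e1, by linarith⟩

end Vale.Agent.Results.P305.A0Explicit
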